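import Mathlib
import Vale.Agent.P225.Cluster.Brouwer

/-!
# P124: bi-Lipschitz bijections that are compact perturbations of linear maps

If `f : X → Y` is a bi-Lipschitz bijection and `f - T` is compact on bounded sets for a bounded
linear `T`, then `T` is Fredholm of index zero, so `X` and `Y` are linearly isomorphic.
-/

open Set Metric Filter MeasureTheory Topology
open scoped NNReal

noncomputable section

namespace Vale.Agent.P124

/-- `g` maps every ball around `0` into a compact set. -/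
def CompactOnBalls {X Y : Type*} [NormedAddCommGroup X] [NormedAddCommGroup Y] (g : X → Y) :
    Prop :=
  ∀ R : ℝ, ∃ D, IsCompact D ∧ MapsTo g (closedBall 0 R) D

section Schauder

variable {Y : Type} [NormedAddCommGroup Y] [NormedSpace ℝ Y]

/-- Finitely many continuous weights approximate the identity on a compact set. -/
theorem exists_weights {D : Set Y} (hD : IsCompact D) {ε : ℝ} (hε : 0 < ε) :
    ∃ (n : ℕ) (p : Fin n → Y) (wt : Fin n → Y → ℝ),
      (∀ i, p i ∈ D) ∧ (∀ i, ContinuousOn (wt i) D) ∧ (∀ d ∈ D, ∀ i, 0 ≤ wt i d) ∧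
      (∀ d ∈ D, ∑ i, wt i d = 1) ∧ ∀ d ∈ D, ‖d - ∑ i, wt i d • p i‖ ≤ ε := by
  obtain ⟨t, htD, htfin, hcov⟩ := finite_approx_of_totallyBounded hD.totallyBounded ε hε
  obtain ⟨n, p, hp⟩ := htfin.fin_embedding
  set a : Fin n → Y → ℝ := fun i d => max 0 (ε - ‖d - p i‖) with ha
  set S : Y → ℝ := fun d => ∑ i, a i d with hS
  have hpos : ∀ d ∈ D, 0 < S d := by
    intro d hd
    obtain ⟨q, hq, hdq⟩ := mem_iUnion₂.1 (hcov hd)
    obtain ⟨i, hi⟩ : q ∈ range p := hp.symm ▸ hq
    refine Finset.sum_pos' (fun j _ => le_max_left _ _) ⟨i, Finset.mem_univ i, lt_max_of_lt_right ?_⟩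
    rw [hi, ← dist_eq_norm]
    linarith [mem_ball.1 hdq]
  refine ⟨n, p, fun i d => a i d / S d, fun i => htD (hp ▸ mem_range_self i), fun i => ?_,
    fun d hd i => div_nonneg (le_max_left _ _) (hpos d hd).le, fun d hd => ?_, fun d hd => ?_⟩
  · refine ContinuousOn.div (by fun_prop) (by fun_prop) fun d hd => (hpos d hd).ne'
  · rw [← Finset.sum_div]; exact div_self (hpos d hd).ne'
  · have e : d - ∑ i, (a i d / S d) • p i = ∑ i, (a i d / S d) • (d - p i) := by
      simp only [smul_sub, Finset.sum_sub_distrib, ← Finset.sum_smul]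
      rw [← Finset.sum_div, div_self (hpos d hd).ne', one_smul]
    rw [e]
    calc ‖∑ i, (a i d / S d) • (d - p i)‖ ≤ ∑ i, (a i d / S d) * ε := by
          refine norm_sum_le_of_le _ fun i _ => ?_
          rw [norm_smul, Real.norm_of_nonneg (div_nonneg (le_max_left _ _) (hpos d hd).le)]
          rcases le_or_gt ‖d - p i‖ ε with h | h
          · exact mul_le_mul_of_nonneg_left h (div_nonneg (le_max_left _ _) (hpos d hd).le)
          · simp [ha, max_eq_left (sub_nonpos.2 h.le)]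
      _ = ε := by rw [← Finset.sum_mul, ← Finset.sum_div, div_self (hpos d hd).ne', one_mul]

/-- Schauder's fixed point theorem for compact maps of the unit ball. -/
theorem exists_fixed_point {F : Y → Y} {D : Set Y} (hD : IsCompact D)
    (hF : ContinuousOn F (closedBall 0 1)) (hmap : MapsTo F (closedBall 0 1) (closedBall 0 1))
    (hFD : MapsTo F (closedBall 0 1) D) : ∃ y ∈ closedBall (0 : Y) 1, F y = y := by
  have hD' : IsCompact (D ∩ closedBall 0 1) := hD.inter_right isClosed_closedBall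
  have hFD' : MapsTo F (closedBall 0 1) (D ∩ closedBall 0 1) := fun y hy => ⟨hFD hy, hmap hy⟩
  have key : ∀ k : ℕ, ∃ y ∈ closedBall (0 : Y) 1, ‖F y - y‖ ≤ 1 / ((k : ℝ) + 1) := by
    intro k
    obtain ⟨n, p, wt, hp, hwc, hw0, hw1, happ⟩ :=
      exists_weights hD' (show (0 : ℝ) < 1 / ((k : ℝ) + 1) by positivity)
    set E := Submodule.span ℝ (range p) with hE
    have : FiniteDimensional ℝ E := FiniteDimensional.span_of_finite ℝ (finite_range p)
    set G : E → E := fun e =>
      ∑ i, wt i (F e) • (⟨p i, Submodule.subset_span (mem_range_self i)⟩ : E)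
    have hsub : MapsTo (fun e : E => (e : Y)) (closedBall 0 1) (closedBall 0 1) := fun e he => by
      simpa [mem_closedBall_zero_iff] using he
    have hFE : ContinuousOn (fun e : E => F e) (closedBall 0 1) :=
      hF.comp continuous_subtype_val.continuousOn hsub
    have hGm : MapsTo G (closedBall 0 1) (closedBall 0 1) := by
      intro e he
      have hd := hFD' (hsub he)
      rw [mem_closedBall_zero_iff]
      calc ‖G e‖ ≤ ∑ i, wt i (F e) * 1 := by
            refine norm_sum_le_of_le _ fun i _ => ?_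
            rw [norm_smul, Real.norm_of_nonneg (hw0 _ hd i)]
            exact mul_le_mul_of_nonneg_left
              (mem_closedBall_zero_iff.1 (hp i).2) (hw0 _ hd i)
        _ = 1 := by rw [← Finset.sum_mul, hw1 _ hd, one_mul]
    obtain ⟨e, he, hfix⟩ := Vale.Agent.P225.exists_fixedPoint_closedBall zero_le_one
      (continuousOn_finsetSum _ fun i _ =>
        (((hwc i).comp hFE (fun e he => hFD' (hsub he))).smul continuousOn_const)) hGm
    refine ⟨e, hsub he, ?_⟩
    have hval : (e : Y) = ∑ i, wt i (F e) • p i := by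
      conv_lhs => rw [← hfix]
      simp [AddSubmonoidClass.coe_finsetSum]
    nth_rewrite 2 [hval]
    exact happ _ (hFD' (hsub he))
  choose y hy hFy using key
  obtain ⟨z, hz, φ, hφ, hlim⟩ := hD'.tendsto_subseq fun k => hFD' (hy k)
  have h0 : Tendsto (fun k => F (y (φ k)) - y (φ k)) atTop (𝓝 0) :=
    squeeze_zero_norm (fun k => hFy (φ k))
      ((tendsto_one_div_add_atTop_nhds_zero_nat).comp hφ.tendsto_atTop)
  have hylim : Tendsto (fun k => y (φ k)) atTop (𝓝 z) := by
    simpa [Function.comp_def] using hlim.sub h0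
  refine ⟨z, hz.2, tendsto_nhds_unique ?_ hlim⟩
  exact (hF z hz.2).tendsto.comp
    (tendsto_nhdsWithin_iff.2 ⟨hylim, Eventually.of_forall fun k => hy (φ k)⟩)

end Schauder

/-- **The index step**: a compact field that is bounded below has no values inside a proper
closed complemented subspace. -/
theorem no_compact_field {Y : Type} [NormedAddCommGroup Y] [NormedSpace ℝ Y] [CompleteSpace Y]
    {M : Y → Y} {κ : ℝ≥0} (hMc : Continuous M) (hMl : AntilipschitzWith κ M)
    (hMu : UniformContinuous M) (hC : CompactOnBalls fun y => M y - y) {P : Y →L[ℝ] Y}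
    (hP : ∀ y, P (M y) = M y) {e : Y} (he : P e ≠ e) : False := by
  obtain ⟨D, hD, hCD⟩ := hC 1
  set C : Y → Y := fun y => M y - y with hCdef
  have hCc : Continuous C := hMc.sub continuous_id
  obtain ⟨n, p, wt, hp, hwc, hw0, hw1, happ⟩ := exists_weights hD (show (0 : ℝ) < 1 / 8 by norm_num)
  -- the coefficients on the image of the ball, extended to the whole space
  have hemb : IsClosedEmbedding fun y : closedBall (0 : Y) 1 => M y :=
    (hMl.isClosedEmbedding hMu).comp isClosed_closedBall.isClosedEmbedding_subtypeVal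
  have hext : ∀ i, ∃ φ : C(Y, ℝ), ∀ y ∈ closedBall (0 : Y) 1, φ (M y) = wt i (C y) := by
    intro i
    obtain ⟨φ, hφ⟩ := ContinuousMap.exists_extension hemb
      ⟨fun y => wt i (C y), (hwc i).comp_continuous (hCc.comp continuous_subtype_val)
        fun y => hCD y.2⟩
    exact ⟨φ, fun y hy => by simpa using congrArg (fun g => g ⟨y, hy⟩) hφ⟩
  choose φ hφ using hext
  set E := Submodule.span ℝ (insert e (range p)) with hE
  have : FiniteDimensional ℝ E := FiniteDimensional.span_of_finite ℝ ((finite_range p).insert e)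
  set q : Fin n → E := fun i => ⟨p i, Submodule.subset_span (Or.inr (mem_range_self i))⟩ with hq
  set Φ : Y → E := fun h => ∑ i, φ i h • q i with hΦ
  have hΦc : Continuous Φ := continuous_finsetSum _ fun i _ => (φ i).continuous.smul continuous_const
  obtain ⟨g, hg, hgd, -⟩ := (hΦc.comp E.subtypeL.continuous).exists_contDiff_approx (2 : ℕ∞)
    (continuous_const (y := (1 / 8 : ℝ))) (fun _ => by norm_num)
  obtain ⟨π₀, hπ₀⟩ := Submodule.ClosedComplemented.of_finiteDimensional E
  set Ψ : Y → E := fun h => Φ h + (g (π₀ h) - Φ (π₀ h)) with hΨ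
  have hΨc : Continuous Ψ := hΦc.add ((hg.continuous.comp π₀.continuous).sub
    (hΦc.comp (continuous_subtype_val.comp π₀.continuous)))
  -- a small value missed by `h ↦ h - g h` on the subspace `E ∩ range P`
  borelize ↥E
  let μ : Measure E := Measure.addHaar
  set HE : Submodule ℝ E :=
    LinearMap.ker (((P : Y →ₗ[ℝ] Y) - LinearMap.id).comp E.subtype) with hHE
  have hHEne : HE ≠ ⊤ := by
    intro htop
    have : (⟨e, Submodule.subset_span (mem_insert _ _)⟩ : E) ∈ HE := htop ▸ Submodule.mem_top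
    simp [hHE, sub_eq_zero] at this
    exact he this
  have hnull : μ ((fun h : E => h - g h) '' (HE : Set E)) = 0 :=
    addHaar_image_eq_zero_of_differentiableOn_of_addHaar_eq_zero μ
      ((differentiable_id.sub (hg.differentiable (by norm_num))).differentiableOn)
      (Measure.addHaar_submodule μ HE hHEne)
  obtain ⟨w, hw, hwS⟩ : ∃ w ∈ ball (0 : E) (1 / 8), w ∉ (fun h : E => h - g h) '' (HE : Set E) :=
    not_subset.1 fun hsub => (measure_ball_pos μ (0 : E) (by norm_num : (0 : ℝ) < 1 / 8)).ne'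
      (le_antisymm ((measure_mono hsub).trans hnull.le) bot_le)
  -- the fixed point map
  set F : Y → Y := fun y => (Ψ (M y) : Y) + w - C y with hF
  have hΦM : ∀ y ∈ closedBall (0 : Y) 1, ‖C y - Φ (M y)‖ ≤ 1 / 8 := by
    intro y hy
    convert happ _ (hCD hy) using 2
    simp [hΦ, hq, hφ _ y hy, AddSubmonoidClass.coe_finsetSum]
  have hΨΦ : ∀ h, ‖Ψ h - Φ h‖ ≤ 1 / 8 := by
    intro h
    simp only [hΨ, add_sub_cancel_left]
    have := (hgd (π₀ h)).le
    rwa [dist_eq_norm] at this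
  have hFs : ∀ y ∈ closedBall (0 : Y) 1, ‖F y‖ ≤ 3 / 8 := by
    intro y hy
    have h1 := hΦM y hy
    have h2 : ‖(Ψ (M y) : Y) - Φ (M y)‖ ≤ 1 / 8 := by simpa using hΨΦ (M y)
    have h3 : ‖(w : Y)‖ ≤ 1 / 8 := by simpa using (mem_ball_zero_iff.1 hw).le
    calc ‖F y‖ = ‖((Ψ (M y) : Y) - Φ (M y)) + (w : Y) + -(C y - Φ (M y))‖ := by
          simp only [hF]; congr 1; abel
      _ ≤ _ := norm_add₃_le
      _ ≤ 3 / 8 := by rw [norm_neg]; linarith
  obtain ⟨R, hR⟩ := hD.isBounded.subset_closedBall 0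
  set B : Set E := closedBall 0 (R + 3 / 8) with hB
  have hFD : MapsTo F (closedBall 0 1)
      ((fun v : E × Y => (v.1 : Y) + w - v.2) '' (B ×ˢ D)) := by
    intro y hy
    refine ⟨(Ψ (M y), C y), ⟨?_, hCD hy⟩, rfl⟩
    rw [hB, mem_closedBall_zero_iff]
    have h1 := hΦM y hy
    have h2 := hΨΦ (M y)
    have h4 : ‖C y‖ ≤ R := mem_closedBall_zero_iff.1 (hR (hCD hy))
    have h5 : ‖Φ (M y)‖ ≤ ‖C y‖ + 1 / 8 := by
      rw [Submodule.coe_norm]
      calc ‖(Φ (M y) : Y)‖ = ‖C y - (C y - Φ (M y))‖ := by congr 1; abel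
        _ ≤ _ := norm_sub_le _ _
        _ ≤ _ := by linarith
    linarith [norm_le_norm_add_norm_sub' (Ψ (M y)) (Φ (M y))]
  have : ProperSpace E := FiniteDimensional.proper ℝ E
  obtain ⟨y, hy, hfix⟩ := exists_fixed_point
    (((isCompact_closedBall _ _).prod hD).image (by fun_prop))
    ((((continuous_subtype_val.comp (hΨc.comp hMc)).add continuous_const).sub hCc).continuousOn)
    (fun y hy => mem_closedBall_zero_iff.2 ((hFs y hy).trans (by norm_num))) hFD
  -- the value of the fixed point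
  set h : E := Ψ (M y) + w with hh
  have hMy : M y = (h : Y) := by
    change (Ψ (M y) : Y) + w - (M y - y) = y at hfix
    rw [hh, Submodule.coe_add]
    calc M y = (M y - y) + y := by abel
      _ = (M y - y) + ((Ψ (M y) : Y) + w - (M y - y)) := by rw [hfix]
      _ = _ := by abel
  have hπ : π₀ (M y) = h := by rw [hMy]; exact hπ₀ h
  have hΨh : Ψ (M y) = g h := by simp [hΨ, hMy, hπ₀]
  refine hwS ⟨h, ?_, ?_⟩
  · simp [hHE, ← hMy, hP y]
  · show h - g h = w
    rw [← hΨh, hh, add_sub_cancel_left]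

/-- A bi-Lipschitz bijection close to a non-surjective left invertible map is impossible. -/
theorem no_lower_index {X Y : Type} [NormedAddCommGroup X] [NormedSpace ℝ X]
    [NormedAddCommGroup Y] [NormedSpace ℝ Y] [CompleteSpace Y] (f : X → Y) (g : Y → X)
    (hfg : ∀ y, f (g y) = y) {c C : ℝ} (hc : 0 < c) (hC : 0 < C)
    (hl : ∀ x x', c * ‖x - x'‖ ≤ ‖f x - f x'‖) (hu : ∀ x x', ‖f x - f x'‖ ≤ C * ‖x - x'‖)
    (T : X →L[ℝ] Y) (L : Y →L[ℝ] X) (hLT : ∀ x, L (T x) = x)
    (hK : CompactOnBalls fun x => f x - T x) {e : Y} (he0 : e ≠ 0) (he : L e = 0) : False := by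
  have hgu : ∀ y y', ‖g y - g y'‖ ≤ ‖y - y'‖ / c := fun y y' => by
    rw [le_div_iff₀ hc, mul_comm]
    simpa [hfg] using hl (g y) (g y')
  have hgl : ∀ y y', ‖y - y'‖ ≤ C * ‖g y - g y'‖ := fun y y' => by
    simpa [hfg] using hu (g y) (g y')
  set M : Y → Y := fun y => T (g y) with hM
  have hlip : LipschitzWith (‖T‖ / c).toNNReal M := LipschitzWith.of_dist_le' fun y y' => by
    rw [dist_eq_norm, dist_eq_norm, hM, ← map_sub]
    calc ‖T (g y - g y')‖ ≤ ‖T‖ * ‖g y - g y'‖ := T.le_opNorm _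
      _ ≤ ‖T‖ * (‖y - y'‖ / c) := mul_le_mul_of_nonneg_left (hgu y y') (norm_nonneg _)
      _ = _ := by ring
  have hanti : AntilipschitzWith (C * ‖L‖).toNNReal M :=
    AntilipschitzWith.of_le_mul_dist fun y y' => by
      rw [Real.coe_toNNReal _ (by positivity), dist_eq_norm, dist_eq_norm]
      have : ‖g y - g y'‖ ≤ ‖L‖ * ‖M y - M y'‖ := by
        simpa [hM, ← map_sub, hLT] using L.le_opNorm (M y - M y')
      calc ‖y - y'‖ ≤ C * ‖g y - g y'‖ := hgl y y'
        _ ≤ C * (‖L‖ * ‖M y - M y'‖) := mul_le_mul_of_nonneg_left this hC.le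
        _ = _ := by ring
  refine no_compact_field hlip.continuous hanti hlip.uniformContinuous (fun R => ?_)
    (P := T.comp L) (fun y => by simp [hM, hLT]) (e := e) (by simpa [he] using he0.symm)
  obtain ⟨D, hD, hKD⟩ := hK (‖g 0‖ + R / c)
  refine ⟨(fun d => -d) '' D, hD.image continuous_neg, fun y hy => ⟨f (g y) - T (g y), hKD ?_, ?_⟩⟩
  · rw [mem_closedBall_zero_iff] at hy ⊢
    have h1 := hgu y 0
    rw [sub_zero] at h1
    have h2 : ‖y‖ / c ≤ R / c := div_le_div_of_nonneg_right hy hc.le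
    linarith [norm_le_norm_add_norm_sub' (g y) (g 0)]
  · simp [hM, hfg]

/-- Bi-Lipschitz bijections between `Z × N` and `Z × F` that are compact perturbations of the
projection to `Z` force equal dimensions. -/
theorem finrank_le {Z N F : Type} [NormedAddCommGroup Z] [NormedSpace ℝ Z] [CompleteSpace Z]
    [NormedAddCommGroup N] [NormedSpace ℝ N] [FiniteDimensional ℝ N] [NormedAddCommGroup F]
    [NormedSpace ℝ F] [FiniteDimensional ℝ F] (f : Z × N → Z × F) (g : Z × F → Z × N)
    (hfg : ∀ y, f (g y) = y) {c C : ℝ} (hc : 0 < c) (hC : 0 < C)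
    (hl : ∀ x x', c * ‖x - x'‖ ≤ ‖f x - f x'‖) (hu : ∀ x x', ‖f x - f x'‖ ≤ C * ‖x - x'‖)
    (hK : CompactOnBalls fun x : Z × N => f x - (x.1, 0)) :
    Module.finrank ℝ F ≤ Module.finrank ℝ N := by
  by_contra hlt
  rw [not_le] at hlt
  have : CompleteSpace F := FiniteDimensional.complete ℝ F
  set n := Module.finrank ℝ N
  set k := Module.finrank ℝ F
  let bN : N ≃L[ℝ] (Fin n → ℝ) :=
    ContinuousLinearEquiv.ofFinrankEq (by rw [Module.finrank_fin_fun])
  let bF : F ≃L[ℝ] (Fin k → ℝ) :=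
    ContinuousLinearEquiv.ofFinrankEq (by rw [Module.finrank_fin_fun])
  let i₁ : (Fin n → ℝ) →ₗ[ℝ] (Fin k → ℝ) :=
    { toFun := fun v i => if h : (i : ℕ) < n then v ⟨i, h⟩ else 0
      map_add' := fun v v' => by funext i; by_cases h : (i : ℕ) < n <;> simp [h]
      map_smul' := fun r v => by funext i; by_cases h : (i : ℕ) < n <;> simp [h] }
  let r₁ : (Fin k → ℝ) →ₗ[ℝ] (Fin n → ℝ) := LinearMap.funLeft ℝ ℝ (Fin.castLE hlt.le)
  let j : N →L[ℝ] F :=
    (bF.symm : (Fin k → ℝ) →L[ℝ] F).comp (i₁.toContinuousLinearMap.comp (bN : N →L[ℝ] _))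
  let l : F →L[ℝ] N :=
    (bN.symm : (Fin n → ℝ) →L[ℝ] N).comp (r₁.toContinuousLinearMap.comp (bF : F →L[ℝ] _))
  have hlj : ∀ a, l (j a) = a := fun a => by
    have : r₁ (i₁ (bN a)) = bN a := by funext i; simp [r₁, i₁]
    simp [l, j, this]
  set v : Fin k → ℝ := Pi.single ⟨n, hlt⟩ 1 with hv
  have hv0 : r₁ v = 0 := by
    funext i
    simp [r₁, hv, LinearMap.funLeft_apply, Fin.ext_iff, i.2.ne]
  refine no_lower_index f g hfg hc hC hl hu
    ((ContinuousLinearMap.fst ℝ Z N).prod (j.comp (ContinuousLinearMap.snd ℝ Z N)))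
    ((ContinuousLinearMap.fst ℝ Z F).prod (l.comp (ContinuousLinearMap.snd ℝ Z F)))
    (fun x => by simp [hlj]) (fun R => ?_) (e := (0, bF.symm v)) ?_ (by simp [l, hv0])
  · obtain ⟨D, hD, hKD⟩ := hK R
    have : ProperSpace N := FiniteDimensional.proper ℝ N
    refine ⟨(fun p : (Z × F) × N => p.1 - (0, j p.2)) '' (D ×ˢ closedBall 0 R),
      (hD.prod (isCompact_closedBall _ _)).image (by fun_prop), fun x hx =>
        ⟨(f x - (x.1, 0), x.2), ⟨hKD hx, ?_⟩, ?_⟩⟩
    · rw [mem_closedBall_zero_iff] at hx ⊢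
      exact (norm_snd_le x).trans hx
    · ext <;> simp
  · intro h
    have h2 : v = 0 := by simpa using congrArg Prod.snd h
    simpa [hv] using congrFun h2 ⟨n, hlt⟩

/-- **Main theorem.** -/
theorem linearIso_of_compact_nonlinear {X Y : Type} [NormedAddCommGroup X] [NormedSpace ℝ X]
    [CompleteSpace X] [NormedAddCommGroup Y] [NormedSpace ℝ Y] [CompleteSpace Y] (f : X → Y)
    (hb : Function.Bijective f) {c C : ℝ} (hc : 0 < c)
    (hl : ∀ x x', c * ‖x - x'‖ ≤ ‖f x - f x'‖) (hu : ∀ x x', ‖f x - f x'‖ ≤ C * ‖x - x'‖)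
    (T : X →L[ℝ] Y) (hK : CompactOnBalls fun x => f x - T x) : Nonempty (X ≃L[ℝ] Y) := by
  set C' := max C 1 with hC'
  have hC'0 : 0 < C' := lt_max_of_lt_right one_pos
  have hu' : ∀ x x', ‖f x - f x'‖ ≤ C' * ‖x - x'‖ := fun x x' =>
    (hu x x').trans (mul_le_mul_of_nonneg_right (le_max_left _ _) (norm_nonneg _))
  set N : Submodule ℝ X := LinearMap.ker (T : X →ₗ[ℝ] Y) with hN
  have hNT : ∀ x ∈ N, T x = 0 := fun x hx => hx
  have hNc : IsClosed (N : Set X) := T.isClosed_ker
  -- the kernel is finite dimensional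
  obtain ⟨D, hD, hKD⟩ := hK 1
  have : CompleteSpace N := hNc.completeSpace_coe
  have : FiniteDimensional ℝ N := by
    refine FiniteDimensional.of_isCompact_closedBall₀ ℝ one_pos
      (isCompact_iff_totallyBounded_isComplete.2 ⟨?_, isClosed_closedBall.isComplete⟩)
    refine totallyBounded_iff.2 fun ε hε => ?_
    obtain ⟨t, htsub, htfin, ht⟩ := finite_approx_of_totallyBounded
      ((hD.totallyBounded).subset (s₁ := (fun x : N => f x - T x) '' closedBall 0 1)
        (image_subset_iff.2 fun x hx => hKD (by simpa using hx))) (c * ε) (mul_pos hc hε)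
    obtain ⟨s, -, hsfin, hst⟩ :=
      (exists_subset_image_finite_and (p := fun u => u = t)).1 ⟨t, htsub, htfin, rfl⟩
    refine ⟨s, hsfin, fun x hx => ?_⟩
    obtain ⟨d, hd, hxd⟩ := mem_iUnion₂.1 (ht (mem_image_of_mem _ hx))
    rw [← hst] at hd
    obtain ⟨x', hx', rfl⟩ := hd
    refine mem_iUnion₂.2 ⟨x', hx', ?_⟩
    rw [mem_ball, dist_eq_norm] at hxd ⊢
    simp only [hNT _ x.2, hNT _ x'.2, sub_zero] at hxd
    exact lt_of_mul_lt_mul_left (lt_of_le_of_lt (hl (x : X) x') hxd) hc.le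
  obtain ⟨X₁, hX₁⟩ := (Submodule.ClosedComplemented.of_finiteDimensional N).exists_isTopCompl
  have hX₁c : IsClosed (X₁ : Set X) := hX₁.isClosed'
  have : CompleteSpace X₁ := hX₁c.completeSpace_coe
  set T₁ : X₁ →L[ℝ] Y := T.comp X₁.subtypeL with hT₁
  -- bounded below on the complement
  obtain ⟨κ, hκ⟩ : ∃ κ, AntilipschitzWith κ T₁ := by
    by_contra hno
    have hx : ∀ m : ℕ, ∃ x : X₁, ‖x‖ = 1 ∧ ‖T₁ x‖ ≤ 1 / ((m : ℝ) + 1) := by
      intro m
      by_contra hcon
      simp only [not_exists, not_and, not_le] at hcon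
      refine hno ⟨(m + 1 : ℕ), T₁.antilipschitz_of_bound fun x => ?_⟩
      rcases eq_or_ne x 0 with rfl | hx0
      · simp
      have hn : 0 < ‖x‖ := norm_pos_iff.2 hx0
      have hu1 := hcon (‖x‖⁻¹ • x) (norm_smul_inv_norm hx0)
      rw [map_smul, norm_smul, norm_inv, norm_norm, inv_mul_eq_div, lt_div_iff₀ hn,
        div_mul_eq_mul_div, one_mul, div_lt_iff₀ (by positivity)] at hu1
      push_cast
      linarith
    choose x hx1 hxT using hx
    obtain ⟨k, -, φ, hφ, hlim⟩ := hD.tendsto_subseq (x := fun m => f (x m) - T (x m))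
      fun m => hKD (mem_closedBall_zero_iff.2 (hx1 m).le)
    have hT0 : Tendsto (fun m => T (x (φ m))) atTop (𝓝 0) :=
      squeeze_zero_norm (fun m => hxT (φ m))
        ((tendsto_one_div_add_atTop_nhds_zero_nat).comp hφ.tendsto_atTop)
    have hfl : Tendsto (fun m => f (x (φ m))) atTop (𝓝 k) := by
      simpa [Function.comp_def] using hlim.add hT0
    obtain ⟨xx, hxx⟩ := hb.2 k
    have hxl : Tendsto (fun m => (x (φ m) : X)) atTop (𝓝 xx) := by
      refine tendsto_iff_norm_sub_tendsto_zero.2 (squeeze_zero (fun _ => norm_nonneg _) (fun m => ?_)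
        (by simpa using (tendsto_iff_norm_sub_tendsto_zero.1 hfl).div_const c))
      rw [le_div_iff₀ hc, mul_comm, ← hxx]
      exact hl _ _
    have h1 : xx ∈ N := tendsto_nhds_unique ((T.continuous.tendsto xx).comp hxl) hT0
    have h2 : xx ∈ X₁ := hX₁c.mem_of_tendsto hxl (Eventually.of_forall fun m => (x (φ m)).2)
    have h3 : xx = 0 := Submodule.disjoint_def.1 hX₁.isCompl.disjoint xx h1 h2
    have h4 := tendsto_nhds_unique hxl.norm
      (tendsto_const_nhds.congr fun m => (hx1 (φ m)).symm : Tendsto _ atTop (𝓝 (1 : ℝ)))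
    simp [h3] at h4
  set R : Submodule ℝ Y := LinearMap.range (T₁ : X₁ →ₗ[ℝ] Y) with hR
  have hRc : IsClosed (R : Set Y) := by
    have h := hκ.isClosed_range T₁.uniformContinuous
    simpa [hR, LinearMap.coe_range] using! h
  have hTR : ∀ x, T x ∈ R := fun x => by
    obtain ⟨a, ha, b, hb', rfl⟩ :=
      Submodule.mem_sup.1 (hX₁.isCompl.sup_eq_top ▸ Submodule.mem_top : x ∈ N ⊔ X₁)
    exact ⟨⟨b, hb'⟩, by simp [hT₁, hNT a ha]⟩
  -- the range has finite codimension
  have : IsClosed (R : Set Y) := hRc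
  have : FiniteDimensional ℝ (Y ⧸ R) := by
    choose D' hD' hKD' using fun m : ℕ => hK m
    have hcov : ⋃ m : ℕ, (R.mkQ '' D' m : Set (Y ⧸ R)) = univ := by
      refine eq_univ_of_forall fun q => ?_
      obtain ⟨y, rfl⟩ := R.mkQ_surjective q
      obtain ⟨x, rfl⟩ := hb.2 y
      obtain ⟨m, hm⟩ := exists_nat_ge ‖x‖
      refine mem_iUnion.2 ⟨m, f x - T x, hKD' m (mem_closedBall_zero_iff.2 hm), ?_⟩
      simp [(Submodule.Quotient.mk_eq_zero R).2 (hTR x)]
    have hmc : ∀ m : ℕ, IsCompact (R.mkQ '' D' m : Set (Y ⧸ R)) := fun m =>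
      (hD' m).image continuous_quot_mk
    obtain ⟨m, q, hq⟩ := nonempty_interior_of_iUnion_of_closed (fun m => (hmc m).isClosed) hcov
    obtain ⟨r, hr, hsub⟩ := Metric.nhds_basis_closedBall.mem_iff.1 (mem_interior_iff_mem_nhds.1 hq)
    exact FiniteDimensional.of_isCompact_closedBall ℝ hr
      ((hmc m).of_isClosed_subset isClosed_closedBall hsub)
  obtain ⟨F, hF⟩ := (Submodule.ClosedComplemented.of_finiteDimensional_quotient hRc).exists_isTopCompl
  have : FiniteDimensional ℝ F :=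
    (R.quotientEquivOfIsCompl F hF.isCompl).finiteDimensional
  let e₁ : X₁ ≃L[ℝ] R := T₁.equivRange hκ.injective (hκ.isClosed_range T₁.uniformContinuous)
  let eX : (X₁ × N) ≃L[ℝ] X := Submodule.prodEquivOfIsTopCompl X₁ N hX₁.symm
  let eY : (X₁ × F) ≃L[ℝ] Y :=
    (e₁.prodCongr (ContinuousLinearEquiv.refl ℝ F)).trans (Submodule.prodEquivOfIsTopCompl R F hF)
  have he₁ : ∀ a : X₁, (e₁ a : Y) = T a := fun a =>
    congrArg Subtype.val (congrFun
      (T₁.coe_equivRange hκ.injective (hκ.isClosed_range T₁.uniformContinuous)) a)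
  have hTe : ∀ x : X₁ × N, T (eX x) = eY (x.1, 0) := fun x => by
    simp [eX, eY, he₁, hNT _ x.2.2]
  obtain ⟨g, hg⟩ := hb.2.hasRightInverse
  have hgf : ∀ x, g (f x) = x := fun x => hb.1 (hg (f x))
  set f' : X₁ × N → X₁ × F := fun x => eY.symm (f (eX x)) with hf'
  set g' : X₁ × F → X₁ × N := fun y => eX.symm (g (eY y)) with hg'
  have hfg' : ∀ y, f' (g' y) = y := fun y => by simp [hf', hg', hg (eY y)]
  have hgf' : ∀ x, g' (f' x) = x := fun x => by simp [hf', hg', hgf]
  set A := ‖(eX : (X₁ × N) →L[ℝ] X)‖ + 1 with hA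
  set A' := ‖(eX.symm : X →L[ℝ] (X₁ × N))‖ + 1 with hA'
  set B := ‖(eY : (X₁ × F) →L[ℝ] Y)‖ + 1 with hBdef
  set B' := ‖(eY.symm : Y →L[ℝ] (X₁ × F))‖ + 1 with hB'
  have bound : ∀ {V W : Type} [NormedAddCommGroup V] [NormedSpace ℝ V] [NormedAddCommGroup W]
      [NormedSpace ℝ W] (S : V →L[ℝ] W) (v : V), ‖S v‖ ≤ (‖S‖ + 1) * ‖v‖ :=
    fun S v => (S.le_opNorm v).trans
      (mul_le_mul_of_nonneg_right (le_add_of_nonneg_right zero_le_one) (norm_nonneg v))
  have hl' : ∀ x x', c / (A' * B) * ‖x - x'‖ ≤ ‖f' x - f' x'‖ := fun x x' => by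
    have h1 := bound (eX.symm : X →L[ℝ] (X₁ × N)) (eX x - eX x')
    have h2 := bound (eY : (X₁ × F) →L[ℝ] Y) (f' x - f' x')
    simp only [ContinuousLinearEquiv.coe_coe, map_sub, ContinuousLinearEquiv.symm_apply_apply,
      hf', ContinuousLinearEquiv.apply_symm_apply] at h1 h2
    rw [div_mul_eq_mul_div, div_le_iff₀ (by positivity)]
    calc c * ‖x - x'‖ ≤ c * (A' * ‖eX x - eX x'‖) := mul_le_mul_of_nonneg_left h1 hc.le
      _ = A' * (c * ‖eX x - eX x'‖) := by ring
      _ ≤ A' * (B * ‖f' x - f' x'‖) :=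
          mul_le_mul_of_nonneg_left ((hl _ _).trans h2) (by positivity)
      _ = _ := by ring
  have hu'' : ∀ x x', ‖f' x - f' x'‖ ≤ B' * C' * A * ‖x - x'‖ := fun x x' => by
    have h1 := bound (eY.symm : Y →L[ℝ] (X₁ × F)) (f (eX x) - f (eX x'))
    have h2 := bound (eX : (X₁ × N) →L[ℝ] X) (x - x')
    simp only [ContinuousLinearEquiv.coe_coe, map_sub] at h1 h2
    calc ‖f' x - f' x'‖ ≤ B' * ‖f (eX x) - f (eX x')‖ := h1
      _ ≤ B' * (C' * (A * ‖x - x'‖)) := mul_le_mul_of_nonneg_left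
          ((hu' _ _).trans (mul_le_mul_of_nonneg_left h2 hC'0.le)) (by positivity)
      _ = _ := by ring
  have hK' : CompactOnBalls fun x : X₁ × N => f' x - (x.1, 0) := fun S => by
    obtain ⟨D₀, hD₀, hKD₀⟩ := hK (A * S)
    refine ⟨eY.symm '' D₀, hD₀.image eY.symm.continuous, fun x hx =>
      ⟨f (eX x) - T (eX x), hKD₀ ?_, ?_⟩⟩
    · rw [mem_closedBall_zero_iff] at hx ⊢
      exact (bound (eX : (X₁ × N) →L[ℝ] X) x).trans (mul_le_mul_of_nonneg_left hx (by positivity))
    · simp [hf', hTe]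
  have hc' : 0 < c / (A' * B) := by positivity
  have hC'' : 0 < B' * C' * A := by positivity
  have h₁ := finrank_le f' g' hfg' hc' hC'' hl' hu'' hK'
  have h₂ := finrank_le g' f' hgf' (c := (B' * C' * A)⁻¹) (C := (c / (A' * B))⁻¹)
    (by positivity) (by positivity)
    (fun y y' => by
      rw [inv_mul_le_iff₀ hC'']
      simpa [hfg'] using hu'' (g' y) (g' y'))
    (fun y y' => by
      rw [le_inv_mul_iff₀ hc']
      simpa [hfg'] using hl' (g' y) (g' y'))
    (fun S => by
      obtain ⟨D₀, hD₀, hKD₀⟩ := hK' (‖g' 0‖ + S / (c / (A' * B)))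
      have : ProperSpace N := FiniteDimensional.proper ℝ N
      refine ⟨(fun p : (X₁ × F) × N => (-p.1.1, p.2)) ''
        (D₀ ×ˢ closedBall 0 (‖g' 0‖ + S / (c / (A' * B)))),
        (hD₀.prod (isCompact_closedBall _ _)).image (by fun_prop),
        fun y hy => ?_⟩
      rw [mem_closedBall_zero_iff] at hy
      have hball : g' y ∈ closedBall (0 : X₁ × N) (‖g' 0‖ + S / (c / (A' * B))) := by
        rw [mem_closedBall_zero_iff]
        have h3 : c / (A' * B) * ‖g' y - g' 0‖ ≤ S := by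
          have := hl' (g' y) (g' 0)
          rw [hfg', hfg', sub_zero] at this
          exact this.trans hy
        rw [mul_comm, ← le_div_iff₀ hc'] at h3
        linarith [norm_le_norm_add_norm_sub' (g' y) (g' 0)]
      refine ⟨(f' (g' y) - ((g' y).1, 0), (g' y).2), ⟨hKD₀ hball, ?_⟩, ?_⟩
      · rw [mem_closedBall_zero_iff] at hball ⊢
        exact (norm_snd_le (g' y)).trans hball
      · rw [hfg']; ext <;> simp)
  exact ⟨eX.symm.trans (((ContinuousLinearEquiv.refl ℝ X₁).prodCongr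
    (ContinuousLinearEquiv.ofFinrankEq (le_antisymm h₂ h₁))).trans eY)⟩

end Vale.Agent.P124
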